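import Vale.Agent.P181.BAL.Defs

set_option autoImplicit false

open scoped TensorProduct

/-!
# P181, BAL, row [B8]: independence for one `ε`
-/

namespace Vale.Agent.P181.BAL.H708

open Vale.Agent.P181 Vale.Agent.P181.H280 Vale.Agent.P181.H54 Vale.Agent.P181.FR
open Vale.Agent.P181.BAL

open Polynomial in
/-- A family `c_i ε^w (s^i + ε R_i(ε, s))`, `i ≤ N`, is linearly independent for one `ε`. -/
theorem exists_indep {N w : ℕ} (c : Fin (N + 1) → ℂ) (R : Fin (N + 1) → ℂ[X][X])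
    (f : Fin (N + 1) → ℂ → ℂ → ℂ) (hc : ∀ i, c i ≠ 0)
    (hf : ∀ i ε s, f i ε s = c i * ε ^ w * (s ^ (i : ℕ) + ε * ((R i).eval (C ε)).eval s)) :
    ∃ ε : ℂ, LinearIndependent ℂ (fun i => f i ε) := by
  let M : Matrix (Fin (N + 1)) (Fin (N + 1)) ℂ[X] := fun p i =>
    C ((((p : ℕ) : ℂ)) ^ (i : ℕ)) + X * (R i).map (evalRingHom ((p : ℕ) : ℂ))
  have hM : ∀ ε : ℂ, M.det.eval ε =
      Matrix.det (fun p i : Fin (N + 1) => ((p : ℕ) : ℂ) ^ (i : ℕ) +
        ε * ((R i).eval (C ε)).eval ((p : ℕ) : ℂ)) := by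
    intro ε
    have h1 := RingHom.map_det (evalRingHom ε) M
    rw [coe_evalRingHom] at h1
    rw [h1]
    congr 1
    ext p i
    rw [RingHom.mapMatrix_apply, Matrix.map_apply, coe_evalRingHom]
    simp only [M, eval_add, eval_C, eval_mul, eval_X]
    rw [map_evalRingHom_eval]
  have h0 : M.det.eval 0 ≠ 0 := by
    rw [hM 0]
    have h1 : (fun p i : Fin (N + 1) => ((p : ℕ) : ℂ) ^ (i : ℕ) +
        0 * ((R i).eval (C 0)).eval ((p : ℕ) : ℂ)) =
        Matrix.vandermonde (fun p : Fin (N + 1) => ((p : ℕ) : ℂ)) := by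
      ext p i
      rw [Matrix.vandermonde_apply, zero_mul, add_zero]
    rw [h1, Matrix.det_vandermonde_ne_zero_iff]
    intro p p' hp
    exact Fin.ext (Nat.cast_injective hp)
  have h2 : ∃ ε : ℂ, ε ≠ 0 ∧ M.det.eval ε ≠ 0 := by
    by_contra hh
    push Not at hh
    have h3 : X * M.det = 0 := by
      apply Polynomial.funext
      intro ε
      rw [eval_mul, eval_X, eval_zero]
      by_cases he : ε = 0
      · rw [he, zero_mul]
      · rw [hh ε he, mul_zero]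
    have h4 : M.det = 0 := (mul_eq_zero.1 h3).resolve_left X_ne_zero
    rw [h4, eval_zero] at h0
    exact h0 rfl
  obtain ⟨ε, he, hd⟩ := h2
  refine ⟨ε, ?_⟩
  rw [Fintype.linearIndependent_iff]
  intro l hl
  rw [hM ε] at hd
  have h5 : (fun i => l i * (c i * ε ^ w)) = 0 := by
    apply Matrix.eq_zero_of_mulVec_eq_zero hd
    funext p
    have h6 := congrFun hl ((p : ℕ) : ℂ)
    simp only [Finset.sum_apply, Pi.smul_apply, smul_eq_mul, Pi.zero_apply] at h6
    rw [Pi.zero_apply, ← h6]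
    have h7 : ∀ i : Fin (N + 1), (((p : ℕ) : ℂ) ^ (i : ℕ) +
        ε * ((R i).eval (C ε)).eval ((p : ℕ) : ℂ)) * (l i * (c i * ε ^ w)) =
        l i * f i ε ((p : ℕ) : ℂ) := by
      intro i
      rw [hf i]
      ring
    have h8 : Matrix.mulVec (fun p i : Fin (N + 1) => ((p : ℕ) : ℂ) ^ (i : ℕ) +
        ε * ((R i).eval (C ε)).eval ((p : ℕ) : ℂ)) (fun i => l i * (c i * ε ^ w)) p =
        ∑ i : Fin (N + 1), (((p : ℕ) : ℂ) ^ (i : ℕ) +
        ε * ((R i).eval (C ε)).eval ((p : ℕ) : ℂ)) * (l i * (c i * ε ^ w)) := by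
      simp only [Matrix.mulVec, dotProduct]
    rw [h8]
    exact Finset.sum_congr rfl (fun i _ => h7 i)
  intro i
  have h7 := congrFun h5 i
  exact (mul_eq_zero.1 h7).resolve_right (mul_ne_zero (hc i) (pow_ne_zero _ he))

/-- **(B8)** `Fam` from `NineK`. -/
theorem fam (h : NineK) : Fam := by
  intro a k K ha
  obtain ⟨φ, hφ⟩ := h a k K ha
  have hφ' : ∀ j : Fin (K * (a - 12) + 1),
      ∃ y ∈ hwSpace (nuK a K k) (plethAct (9 * K) a (k + 2)), HasLine φ (7 * K) (j : ℕ) y :=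
    fun j => hφ (j : ℕ) (Nat.lt_succ_iff.1 j.2)
  choose g hg hline using hφ'
  have hline' : ∀ j : Fin (K * (a - 12) + 1), ∃ (c : ℂ) (R : Polynomial (Polynomial ℂ)), c ≠ 0 ∧
      ∀ ε s : ℂ, ev (φ ε) (plethAct (9 * K) a (k + 2) (ns k s) (g j)) =
        c * ε ^ (7 * K) * (s ^ (j : ℕ) + ε * (R.eval (Polynomial.C ε)).eval s) := hline
  choose c R hc hR using hline'
  obtain ⟨ε, hε⟩ := exists_indep c R
    (fun j ε s => ev (φ ε) (plethAct (9 * K) a (k + 2) (ns k s) (g j))) hc hR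
  exact ⟨g, hg, φ ε, hε⟩

end Vale.Agent.P181.BAL.H708
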